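import Vale.Agent.P196.Built

/-!
Obstruction to infinite finitely presented simple groups: they have no nontrivial action with
small boundaries, in particular none with Schreier graphs of linear growth and none by piecewise
powers of one homeomorphism.
-/

namespace Vale.Agent.Results.P196.FpSimpleExclusions

open Vale.Agent.P196

/-- Finitely presented groups without nontrivial finite quotients (in particular infinite finitely
presented simple groups) act trivially as soon as the action has an exhaustion with uniformly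
small boundaries; hence orbit balls of nontrivial orbits grow superlinearly, and every
homomorphism into a topological full group of `ℤ` into the homeomorphisms of bounded type of
a product of finite sets, into the interval exchanges of `[0, 1)` or into the piecewise integral
affine bijections of a cube is trivial. No group built from finite, abelian, residually finite and
such groups by subgroups, extensions, directed unions and local embeddability contains an infinite finitely presented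
simple group. Moreover nontrivial orbits satisfy the growth gap `n ≤ q ^ (c * q)` for
`q = |ball n| / n + 2`. -/
theorem result (G : Type) [Group G] [Group.IsFinitelyPresented G]
    (hG : (Infinite G ∧ IsSimpleGroup G) ∨
      ∀ (H : Type) [Group H] [Finite H] (f : G →* H), f = 1) :
    (∀ (X : Type) [MulAction G X],
      (∀ E : Finset G, ∃ B : ℕ, ∀ A : Finset X, ∃ F N : Finset X, A ⊆ F ∧ N.card ≤ B ∧
        ∀ x, ∀ g ∈ E, ¬(x ∈ F ↔ g • x ∈ F) → x ∈ N) →
      ∀ (g : G) (x : X), g • x = x) ∧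
    (∀ (X : Type) [MulAction G X] (S : Finset G), Subgroup.closure (S : Set G) = ⊤ →
      ∀ x : X, (∃ g : G, g • x ≠ x) → ∀ C : ℕ, ∃ N : ℕ, ∀ n, N ≤ n →
        C * n < {y : X | ∃ l : List G, l.length ≤ n ∧ (∀ s ∈ l, s ∈ S ∨ s⁻¹ ∈ S) ∧
          l.prod • x = y}.ncard) ∧
    (∀ (X : Type) [MulAction G X] (S : Finset G), Subgroup.closure (S : Set G) = ⊤ →
      ∀ x : X, (∃ g : G, g • x ≠ x) → ∃ c : ℕ, ∀ n : ℕ,
        let q := {y : X | ∃ l : List G, l.length ≤ n ∧ (∀ s ∈ l, s ∈ S ∨ s⁻¹ ∈ S) ∧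
          l.prod • x = y}.ncard / n + 2
        n ≤ q ^ (c * q)) ∧
    (∀ (Y : Type) (τ : Equiv.Perm Y) (ρ : G →* Equiv.Perm Y),
      (∀ g, ∃ K : Finset ℤ, ∀ y, ∃ k ∈ K, ρ g y = (τ ^ k) y) → ρ = 1) ∧
    (∀ (a : ℕ → ℕ) (ρ : G →* Equiv.Perm (∀ k, Fin (a k))),
      (∀ g, ∃ B : ℕ, ∀ n : ℕ, ∃ Bad : Finset (∀ i : Fin n, Fin (a i)), Bad.card ≤ B ∧
        ∀ x : ∀ k, Fin (a k), (fun i : Fin n => x i) ∉ Bad → ∀ m, n ≤ m → ρ g x m = x m) →
      ρ = 1) ∧
    (∀ ρ : G →* Equiv.Perm {x : ℝ // 0 ≤ x ∧ x < 1},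
      (∀ g, ∃ P : Finset ℝ, ∀ x y : {x : ℝ // 0 ≤ x ∧ x < 1},
        (∀ p ∈ P, (x.1 < p ↔ y.1 < p) ∧ (p < x.1 ↔ p < y.1)) →
          (ρ g x).1 - x.1 = (ρ g y).1 - y.1) → ρ = 1) ∧
    (∀ (n : ℕ) (ρ : G →* Equiv.Perm {x : Fin n → ℝ // ∀ i, 0 ≤ x i ∧ x i < 1}),
      (∀ g, ∃ P : Finset ((Fin n → ℤ) × ℝ), ∀ x : {x : Fin n → ℝ // ∀ i, 0 ≤ x i ∧ x i < 1},
        ∃ (M : Matrix (Fin n) (Fin n) ℤ) (t : Fin n → ℝ),
          ∀ y : {x : Fin n → ℝ // ∀ i, 0 ≤ x i ∧ x i < 1},
            (∀ p ∈ P,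
              (0 < ∑ j, (p.1 j : ℝ) * x.1 j + p.2 ↔ 0 < ∑ j, (p.1 j : ℝ) * y.1 j + p.2) ∧
              (∑ j, (p.1 j : ℝ) * x.1 j + p.2 < 0 ↔ ∑ j, (p.1 j : ℝ) * y.1 j + p.2 < 0)) →
            ∀ i, (ρ g y).1 i = ∑ j, (M i j : ℝ) * y.1 j + t i) → ρ = 1) ∧
    (∀ (A : Type) [Group A], Built A → Infinite G → IsSimpleGroup G →
      ¬ ∃ f : G →* A, Function.Injective f) := by
  have hG' : ∀ (H : Type) [Group H] [Finite H] (f : G →* H), f = 1 := by
    rcases hG with ⟨h1, h2⟩ | h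
    · haveI := h1; haveI := h2
      exact no_finite_quotient_of_simple
    · exact h
  refine ⟨fun X _ hX => trivial_of_boundedCuts hG' hX, fun X _ S hS x ⟨g, hg⟩ C => ?_,
    fun X _ S hS x hx => growth_gap hG' S hS x hx,
    fun Y τ ρ hρ => trivial_of_fullGroup hG' τ ρ hρ,
    fun a ρ hρ => trivial_of_boundedType hG' ρ hρ,
    fun ρ hρ => trivial_of_iet hG' ρ hρ, fun n ρ hρ => trivial_of_pam hG' ρ hρ, fun A _ hA hinf hs ⟨f, hf⟩ => ?_⟩
  rotate_left
  · haveI := hs
    exact not_finite_iff_infinite.2 hinf (hA.noSimple G f hf)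
  by_contra hcon
  push Not at hcon
  exact hg (fixed_of_linear hG' S hS x C hcon g)

end Vale.Agent.Results.P196.FpSimpleExclusions
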